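import Vale.Agent.P237.Quant.TailData.N60.tailN60P3Part0
import Vale.Agent.P237.Quant.TailData.N60.tailN60P3Part1
import Vale.Agent.P237.Quant.TailData.N60.tailN60P3Part2
import Vale.Agent.P237.Quant.TailData.N60.tailN60P3Part3
import Vale.Agent.P237.Quant.TailData.N60.tailN60P3Part4
import Vale.Agent.P237.Quant.TailData.N60.tailN60P3Part5
import Vale.Agent.P237.Quant.TailData.N60.tailN60P3Part6

/-!
Tail calibration tailN60P3 in dimension 60. The check. Generated data, checked by the kernel.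
-/

set_option maxRecDepth 100000
set_option linter.all false

namespace Vale.Agent.P237.Quant.TailData

open TailCert


/-- The calibration. -/
noncomputable def tailN60P3 : Cfg :=
  tailN60P3Base.withIvals (List.flatten [tailN60P3L0, tailN60P3L1, tailN60P3L2, tailN60P3L3, tailN60P3L4, tailN60P3L5, tailN60P3L6, tailN60P3L7, tailN60P3L8, tailN60P3L9, tailN60P3L10, tailN60P3L11, tailN60P3L12, tailN60P3L13, tailN60P3L14, tailN60P3L15, tailN60P3L16, tailN60P3L17, tailN60P3L18, tailN60P3L19, tailN60P3L20, tailN60P3L21, tailN60P3L22, tailN60P3L23, tailN60P3L24])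

theorem tailN60P3_parts : [tailN60P3L0, tailN60P3L1, tailN60P3L2, tailN60P3L3, tailN60P3L4, tailN60P3L5, tailN60P3L6, tailN60P3L7, tailN60P3L8, tailN60P3L9, tailN60P3L10, tailN60P3L11, tailN60P3L12, tailN60P3L13, tailN60P3L14, tailN60P3L15, tailN60P3L16, tailN60P3L17, tailN60P3L18, tailN60P3L19, tailN60P3L20, tailN60P3L21, tailN60P3L22, tailN60P3L23, tailN60P3L24].Forall fun l => tailN60P3Base.partUsed tailN60P3Used l = true := by
  simp only [List.forall_cons, List.Forall]
  exact ⟨tailN60P3L0_ok, tailN60P3L1_ok, tailN60P3L2_ok, tailN60P3L3_ok, tailN60P3L4_ok, tailN60P3L5_ok, tailN60P3L6_ok, tailN60P3L7_ok, tailN60P3L8_ok, tailN60P3L9_ok, tailN60P3L10_ok, tailN60P3L11_ok, tailN60P3L12_ok, tailN60P3L13_ok, tailN60P3L14_ok, tailN60P3L15_ok, tailN60P3L16_ok, tailN60P3L17_ok, tailN60P3L18_ok, tailN60P3L19_ok, tailN60P3L20_ok, tailN60P3L21_ok, tailN60P3L22_ok, tailN60P3L23_ok, tailN60P3L24_ok⟩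

theorem tailN60P3_check : tailN60P3.check = true :=
  Cfg.check_of_parts (by decide +kernel) tailN60P3_parts

end Vale.Agent.P237.Quant.TailData
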