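import Vale.Agent.P237.Quant.TailPartsLink
import Vale.Agent.P237.Quant.RowTables
import Vale.Agent.P237.Quant.EnvelopeTableData.N56
import Vale.Agent.P237.Quant.TailData.N60.tailN60P0
import Vale.Agent.P237.Quant.TailData.N60.tailN60P1
import Vale.Agent.P237.Quant.TailData.N60.tailN60P2
import Vale.Agent.P237.Quant.TailData.N60.tailN60P3
import Vale.Agent.P237.Quant.TailData.N60.tailN60N0
import Vale.Agent.P237.Quant.TailData.N60.tailN60N1

/-!
The tail inequalities of the rows of both sides in dimension 60. Generated.
-/

namespace Vale.Agent.P237.Quant

open TailCert TailData

/-- The tail inequalities of `negRow14` in dimension 60. -/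
theorem negRow14_tailAt60 : negRow14.TailAt 59 := by
  intro P hP
  simp only [negRow14, binsOf, List.mem_cons, List.not_mem_nil, or_false] at hP
  rcases hP with rfl | rfl
  · exact tailBin_negParts tailN60N0_check tailN60N0_parts envTable60_check (by decide +kernel)
  · exact tailBin_negParts tailN60N1_check tailN60N1_parts envTable60_check (by decide +kernel)

/-- The tail inequalities of `posRow55` in dimension 60. -/
theorem posRow55_tailAt60 : posRow55.TailAt 59 := by
  intro P hP
  simp only [posRow55, posRowB, posCuts14, posCuts16, binsOf, List.mem_cons, List.not_mem_nil, or_false] at hP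
  rcases hP with rfl | rfl | rfl | rfl
  · exact tailBin_posParts tailN60P0_check tailN60P0_parts envTable60_check (by decide +kernel)
  · exact tailBin_posParts tailN60P1_check tailN60P1_parts envTable60_check (by decide +kernel)
  · exact tailBin_posParts tailN60P2_check tailN60P2_parts envTable60_check (by decide +kernel)
  · exact tailBin_posParts tailN60P3_check tailN60P3_parts envTable60_check (by decide +kernel)

end Vale.Agent.P237.Quant
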